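import Vale.Agent.P237.Quant.TailPartsLink
import Vale.Agent.P237.Quant.RowTables
import Vale.Agent.P237.Quant.EnvelopeTableData.N76
import Vale.Agent.P237.Quant.TailData.N82.tailN82P0
import Vale.Agent.P237.Quant.TailData.N82.tailN82P1
import Vale.Agent.P237.Quant.TailData.N82.tailN82P2
import Vale.Agent.P237.Quant.TailData.N82.tailN82P3
import Vale.Agent.P237.Quant.TailData.N82.tailN82N0
import Vale.Agent.P237.Quant.TailData.N82.tailN82N1

/-!
The tail inequalities of the rows of both sides in dimension 82. Generated.
-/

namespace Vale.Agent.P237.Quant

open TailCert TailData

/-- The tail inequalities of `negRow14` in dimension 82. -/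
theorem negRow14_tailAt82 : negRow14.TailAt 81 := by
  intro P hP
  simp only [negRow14, binsOf, List.mem_cons, List.not_mem_nil, or_false] at hP
  rcases hP with rfl | rfl
  · exact tailBin_negParts tailN82N0_check tailN82N0_parts envTable82_check (by decide +kernel)
  · exact tailBin_negParts tailN82N1_check tailN82N1_parts envTable82_check (by decide +kernel)

/-- The tail inequalities of `posRow55` in dimension 82. -/
theorem posRow55_tailAt82 : posRow55.TailAt 81 := by
  intro P hP
  simp only [posRow55, posRowB, posCuts14, posCuts16, binsOf, List.mem_cons, List.not_mem_nil, or_false] at hP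
  rcases hP with rfl | rfl | rfl | rfl
  · exact tailBin_posParts tailN82P0_check tailN82P0_parts envTable82_check (by decide +kernel)
  · exact tailBin_posParts tailN82P1_check tailN82P1_parts envTable82_check (by decide +kernel)
  · exact tailBin_posParts tailN82P2_check tailN82P2_parts envTable82_check (by decide +kernel)
  · exact tailBin_posParts tailN82P3_check tailN82P3_parts envTable82_check (by decide +kernel)

end Vale.Agent.P237.Quant
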